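import Mathlib

open MeasureTheory ProbabilityTheory
open scoped RealInnerProductSpace ENNReal NNReal

namespace Vale.Agent.Lib.P226

variable {E : Type*} [NormedAddCommGroup E] [InnerProductSpace ℝ E] [FiniteDimensional ℝ E]
  [MeasurableSpace E] [BorelSpace E]

/-- The law of `x ↦ ⟪z, x⟫` under the standard Gaussian is `N(0, ‖z‖^2)`. -/
lemma map_inner_stdGaussian (z : E) :
    (stdGaussian E).map (fun x => ⟪z, x⟫) = gaussianReal 0 (‖z‖ ^ 2).toNNReal := by
  have h := IsGaussian.map_eq_gaussianReal (μ := stdGaussian E) (innerSL ℝ z)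
  rw [integral_strongDual_stdGaussian, variance_dual_stdGaussian, innerSL_apply_norm] at h
  exact h

lemma integrable_inner_stdGaussian (z : E) :
    Integrable (fun x => ⟪z, x⟫) (stdGaussian E) :=
  IsGaussian.integrable_dual (stdGaussian E) (innerSL ℝ z)

lemma integrable_id_stdGaussian : Integrable (fun x : E => x) (stdGaussian E) :=
  IsGaussian.integrable_fun_id

/-- `‖z(A)‖^2 = ∫_A ⟪z(A), x⟫`. -/
lemma norm_sq_moment (A : Set E) :
    ‖∫ x in A, x ∂(stdGaussian E)‖ ^ 2
      = ∫ x in A, ⟪∫ y in A, y ∂(stdGaussian E), x⟫ ∂(stdGaussian E) := by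
  rw [← real_inner_self_eq_norm_sq]
  exact (integral_inner (integrable_id_stdGaussian.integrableOn) _).symm

lemma integral_exp_inner (z : E) (t : ℝ) :
    ∫ x, Real.exp (t * ⟪z, x⟫) ∂(stdGaussian E) = Real.exp (‖z‖ ^ 2 * t ^ 2 / 2) := by
  have h := mgf_gaussianReal (map_inner_stdGaussian z) t
  simp only [mgf] at h
  rw [h]
  congr 1
  rw [Real.coe_toNNReal _ (by positivity)]
  ring

lemma integrable_exp_inner (z : E) (t : ℝ) :
    Integrable (fun x => Real.exp (t * ⟪z, x⟫)) (stdGaussian E) := by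
  have h := integrable_exp_mul_gaussianReal (μ := 0) (v := (‖z‖ ^ 2).toNNReal) t
  rw [← map_inner_stdGaussian z] at h
  exact h.comp_measurable (by fun_prop)

end Vale.Agent.Lib.P226
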