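import Vale.Agent.Lib.P226.Basic

open MeasureTheory ProbabilityTheory
open scoped RealInnerProductSpace ENNReal NNReal

namespace Vale.Agent.Lib.P226

variable {E : Type*} [NormedAddCommGroup E] [InnerProductSpace ℝ E] [FiniteDimensional ℝ E]
  [MeasurableSpace E] [BorelSpace E]

/-- Entropy (Gibbs) bound: `t ∫_A ⟪z,x⟫ ≤ a (‖z‖² t²/2 - log a)`. -/
lemma entropy_bound (A : Set E) (z : E) (t : ℝ)
    (ha : 0 < (stdGaussian E).real A) :
    t * ∫ x in A, ⟪z, x⟫ ∂(stdGaussian E)
      ≤ (stdGaussian E).real A * (‖z‖ ^ 2 * t ^ 2 / 2 - Real.log ((stdGaussian E).real A)) := by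
  set μ := stdGaussian E with hμ
  set a := μ.real A with ha'
  set K := ‖z‖ ^ 2 * t ^ 2 / 2 with hK
  -- c = exp K / a
  set c := Real.exp K / a with hc
  have hcpos : 0 < c := by positivity
  have hlogc : Real.log c = K - Real.log a := by
    rw [hc, Real.log_div (Real.exp_pos _).ne' ha.ne', Real.log_exp]
  have hpt : ∀ x : E, c * (1 + t * ⟪z, x⟫ - Real.log c) ≤ Real.exp (t * ⟪z, x⟫) := by
    intro x
    have h1 := Real.add_one_le_exp (t * ⟪z, x⟫ - Real.log c)
    have h2 : Real.exp (t * ⟪z, x⟫) = c * Real.exp (t * ⟪z, x⟫ - Real.log c) := by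
      rw [Real.exp_sub, Real.exp_log hcpos]; field_simp
    rw [h2]
    apply mul_le_mul_of_nonneg_left _ hcpos.le
    linarith
  have hint1 : Integrable (fun x => c * (1 + t * ⟪z, x⟫ - Real.log c)) μ := by
    apply Integrable.const_mul
    apply Integrable.sub
    · exact (integrable_const _).add ((integrable_inner_stdGaussian z).const_mul t)
    · exact integrable_const _
  have h3 : ∫ x in A, c * (1 + t * ⟪z, x⟫ - Real.log c) ∂μ
      ≤ ∫ x in A, Real.exp (t * ⟪z, x⟫) ∂μ :=
    setIntegral_mono hint1.integrableOn (integrable_exp_inner z t).integrableOn hpt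
  have h4 : ∫ x in A, Real.exp (t * ⟪z, x⟫) ∂μ ≤ Real.exp K := by
    rw [← integral_exp_inner z t]
    exact setIntegral_le_integral (integrable_exp_inner z t)
      (Filter.Eventually.of_forall fun x => (Real.exp_pos _).le)
  have h5 : ∫ x in A, c * (1 + t * ⟪z, x⟫ - Real.log c) ∂μ
      = c * (a * (1 - Real.log c) + t * ∫ x in A, ⟪z, x⟫ ∂μ) := by
    rw [integral_const_mul]
    congr 1
    have : (fun x => 1 + t * ⟪z, x⟫ - Real.log c) = fun x => (1 - Real.log c) + t * ⟪z, x⟫ := by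
      ext x; ring
    rw [this, integral_add (integrable_const _).integrableOn
      ((integrable_inner_stdGaussian z).const_mul t).integrableOn, integral_const_mul]
    simp [ha', Measure.real, hμ]
  have h6 : c * (a * (1 - Real.log c) + t * ∫ x in A, ⟪z, x⟫ ∂μ) ≤ c * a := by
    have : c * a = Real.exp K := by rw [hc]; field_simp
    rw [this, ← h5]; exact h3.trans h4
  have h7 := le_of_mul_le_mul_left h6 hcpos
  rw [hlogc] at h7
  nlinarith

/-- `‖z(A)‖² ≤ 2 a² log (1/a)`. -/
lemma norm_sq_moment_le (A : Set E)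
    (ha : 0 < (stdGaussian E).real A) :
    ‖∫ x in A, x ∂(stdGaussian E)‖ ^ 2
      ≤ 2 * (stdGaussian E).real A ^ 2 * (- Real.log ((stdGaussian E).real A)) := by
  set a := (stdGaussian E).real A with ha'
  set z := ∫ x in A, x ∂(stdGaussian E) with hz
  have h := entropy_bound A z (1 / a) ha
  rw [← norm_sq_moment A, ← hz, ← ha'] at h
  have h2 : 1 / a * ‖z‖ ^ 2 ≤ ‖z‖ ^ 2 / (2 * a) - a * Real.log a := by
    calc 1 / a * ‖z‖ ^ 2 ≤ a * (‖z‖ ^ 2 * (1 / a) ^ 2 / 2 - Real.log a) := h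
      _ = ‖z‖ ^ 2 / (2 * a) - a * Real.log a := by field_simp
  have h3 : ‖z‖ ^ 2 / (2 * a) ≤ - (a * Real.log a) := by
    have : 1 / a * ‖z‖ ^ 2 = 2 * (‖z‖ ^ 2 / (2 * a)) := by field_simp
    linarith
  rw [div_le_iff₀ (by positivity)] at h3
  nlinarith

end Vale.Agent.Lib.P226
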