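import Mathlib

/-!
Level-one inequality for the standard Gaussian measure and its consequence for partitions into
small cells (P226).
-/

namespace Vale.Agent.Lib.P226

open MeasureTheory ProbabilityTheory Real
open scoped RealInnerProductSpace

variable {E : Type*} [NormedAddCommGroup E] [InnerProductSpace ℝ E] [FiniteDimensional ℝ E]
  [MeasurableSpace E] [BorelSpace E]

theorem map_inner_stdGaussian (u : E) :
    (stdGaussian E).map (innerSL ℝ u) = gaussianReal 0 (‖u‖ ^ 2).toNNReal := by
  rw [IsGaussian.map_eq_gaussianReal, integral_strongDual_stdGaussian,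
    variance_dual_stdGaussian, innerSL_apply_norm]

theorem mgf_inner (u : E) (hu : ‖u‖ = 1) (t : ℝ) :
    ∫ x, rexp (t * ⟪u, x⟫) ∂(stdGaussian E) = rexp (t ^ 2 / 2) := by
  have h := mgf_gaussianReal (map_inner_stdGaussian u) t
  rw [hu] at h
  simp only [mgf, innerSL_apply_apply] at h
  rw [h]
  simp

theorem integrable_exp_inner (u : E) (t : ℝ) :
    Integrable (fun x => rexp (t * ⟪u, x⟫)) (stdGaussian E) := by
  have h : 0 < mgf (innerSL ℝ u) (stdGaussian E) t := by
    rw [mgf_gaussianReal (map_inner_stdGaussian u) t]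
    exact Real.exp_pos _
  have := mgf_pos_iff.1 h
  simpa [innerSL_apply_apply] using this

theorem integrable_inner (u : E) : Integrable (fun x => ⟪u, x⟫) (stdGaussian E) :=
  (IsGaussian.integrable_id (μ := stdGaussian E)).const_inner u

theorem young (s b : ℝ) (hb : 0 < b) : s ≤ rexp s / b + (Real.log b - 1) := by
  have h := Real.add_one_le_exp (s - Real.log b)
  rw [Real.exp_sub, Real.exp_log hb] at h
  linarith

/-- Entropy bound for the first moment of a set in a unit direction. -/
theorem mul_setIntegral_inner_le (u : E) (hu : ‖u‖ = 1) (A : Set E)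
    (hpos : 0 < (stdGaussian E).real A) (t : ℝ) :
    t * ∫ x in A, ⟪u, x⟫ ∂(stdGaussian E) ≤
      (stdGaussian E).real A * (t ^ 2 / 2 + Real.log (1 / (stdGaussian E).real A)) := by
  set m := (stdGaussian E).real A with hm
  set b : ℝ := rexp (t ^ 2 / 2) / m with hb
  have hbpos : 0 < b := div_pos (Real.exp_pos _) hpos
  have hint1 : IntegrableOn (fun x => t * ⟪u, x⟫) A (stdGaussian E) :=
    ((integrable_inner u).const_mul t).integrableOn
  have hint2 : IntegrableOn (fun x => rexp (t * ⟪u, x⟫) / b + (Real.log b - 1)) A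
      (stdGaussian E) :=
    (((integrable_exp_inner u t).div_const b).add (integrable_const _)).integrableOn
  have h1 : ∫ x in A, t * ⟪u, x⟫ ∂(stdGaussian E) ≤
      ∫ x in A, (rexp (t * ⟪u, x⟫) / b + (Real.log b - 1)) ∂(stdGaussian E) :=
    setIntegral_mono hint1 hint2 (fun x => young _ b hbpos)
  have h2 : ∫ x in A, (rexp (t * ⟪u, x⟫) / b + (Real.log b - 1)) ∂(stdGaussian E) =
      (∫ x in A, rexp (t * ⟪u, x⟫) ∂(stdGaussian E)) / b + m * (Real.log b - 1) := by
    rw [integral_add ((integrable_exp_inner u t).div_const b).integrableOn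
      (integrable_const _).integrableOn, integral_div, setIntegral_const]
    simp [hm]
  have h3 : ∫ x in A, rexp (t * ⟪u, x⟫) ∂(stdGaussian E) ≤ rexp (t ^ 2 / 2) := by
    rw [← mgf_inner u hu t]
    exact setIntegral_le_integral (integrable_exp_inner u t)
      (Filter.Eventually.of_forall fun x => (Real.exp_pos _).le)
  have h4 : (∫ x in A, rexp (t * ⟪u, x⟫) ∂(stdGaussian E)) / b ≤ m := by
    rw [div_le_iff₀ hbpos, hb]
    rw [mul_div_assoc', mul_comm, mul_div_assoc, div_self hpos.ne', mul_one]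
    exact h3
  have h5 : Real.log b = t ^ 2 / 2 + Real.log (1 / m) := by
    rw [hb, Real.log_div (Real.exp_pos _).ne' hpos.ne', Real.log_exp, one_div, Real.log_inv]
    ring
  rw [integral_const_mul] at h1
  rw [h2] at h1
  calc t * ∫ x in A, ⟪u, x⟫ ∂(stdGaussian E)
      ≤ (∫ x in A, rexp (t * ⟪u, x⟫) ∂(stdGaussian E)) / b + m * (Real.log b - 1) := h1
    _ ≤ m + m * (Real.log b - 1) := by linarith
    _ = m * (t ^ 2 / 2 + Real.log (1 / m)) := by rw [h5]; ring

/-- Level-one inequality: the squared norm of the Gaussian first moment of `A` is at most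
`2 m ^ 2 log (1 / m)` with `m` the Gaussian measure of `A`. -/
theorem norm_sq_moment_le (A : Set E) :
    ‖∫ x in A, x ∂(stdGaussian E)‖ ^ 2 ≤
      2 * (stdGaussian E).real A ^ 2 * Real.log (1 / (stdGaussian E).real A) := by
  set m := (stdGaussian E).real A with hm
  set z := ∫ x in A, x ∂(stdGaussian E) with hz
  by_cases hz0 : z = 0
  · rw [hz0, norm_zero]
    have hm1 : m ≤ 1 := measureReal_le_one
    have hm0 : 0 ≤ m := measureReal_nonneg
    rcases hm0.eq_or_lt with h | h
    · rw [← h]; simp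
    · have h0 : 0 ≤ Real.log (1 / m) := Real.log_nonneg (by rw [le_div_iff₀ h]; linarith)
      have h1 : 0 ≤ 2 * m ^ 2 := by positivity
      simpa using mul_nonneg h1 h0
  have hnz : 0 < ‖z‖ := norm_pos_iff.2 hz0
  have hpos : 0 < m := by
    by_contra hcon
    have hm0 : m = 0 := le_antisymm (not_lt.1 hcon) measureReal_nonneg
    apply hz0
    rw [hz]
    have hA0 : (stdGaussian E) A = 0 := by
      rw [hm, measureReal_eq_zero_iff] at hm0
      exact hm0
    exact setIntegral_measure_zero _ hA0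
  set u : E := (‖z‖⁻¹ : ℝ) • z with hu
  have hunorm : ‖u‖ = 1 := by
    rw [hu, norm_smul, norm_inv, norm_norm, inv_mul_cancel₀ hnz.ne']
  have hinner : ∫ x in A, ⟪u, x⟫ ∂(stdGaussian E) = ‖z‖ := by
    have hi := integral_inner (𝕜 := ℝ) (μ := (stdGaussian E).restrict A) (f := fun x : E => x)
      (IsGaussian.integrable_id (μ := stdGaussian E)).integrableOn u
    rw [hi]
    change ⟪u, z⟫ = ‖z‖
    rw [hu, real_inner_smul_left, real_inner_self_eq_norm_sq]
    field_simp
  have key := mul_setIntegral_inner_le u hunorm A hpos (‖z‖ / m)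
  rw [hinner] at key
  have h1 : ‖z‖ / m * ‖z‖ = ‖z‖ ^ 2 / m := by ring
  have h2 : m * ((‖z‖ / m) ^ 2 / 2 + Real.log (1 / m)) = ‖z‖ ^ 2 / m / 2 + m * Real.log (1 / m) := by
    field_simp
  rw [h1, h2] at key
  have h3 : ‖z‖ ^ 2 / m ≤ 2 * (m * Real.log (1 / m)) := by linarith
  rw [div_le_iff₀ hpos] at h3
  calc ‖z‖ ^ 2 ≤ 2 * (m * Real.log (1 / m)) * m := h3
    _ = 2 * m ^ 2 * Real.log (1 / m) := by ring

theorem small_bound (m : ℝ) (h0 : 0 ≤ m) (h1 : m ≤ 1 / 16) :
    2 * m ^ 2 * Real.log (1 / m) ≤ Real.log 2 / 2 * m := by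
  rcases h0.eq_or_lt with h | h
  · rw [← h]; simp
  have hlog16 : Real.log 16 = 4 * Real.log 2 := by
    rw [show (16 : ℝ) = 2 ^ 4 by norm_num, Real.log_pow]; norm_num
  have hsplit : Real.log (1 / m) = Real.log (1 / (16 * m)) + Real.log 16 := by
    rw [← Real.log_mul (by positivity) (by norm_num)]
    congr 1
    field_simp
  have hle : Real.log (1 / (16 * m)) ≤ 1 / (16 * m) - 1 := Real.log_le_sub_one_of_pos (by positivity)
  have hl2 : (1 / 4 : ℝ) < Real.log 2 := by
    have := Real.log_two_gt_d9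
    linarith
  -- m * log (1/m) ≤ 1/16 - m + 4 m log 2 ≤ (log 2)/4
  have h2 : m * Real.log (1 / m) ≤ Real.log 2 / 4 := by
    rw [hsplit, hlog16]
    have h3 : m * Real.log (1 / (16 * m)) ≤ 1 / 16 - m := by
      calc m * Real.log (1 / (16 * m)) ≤ m * (1 / (16 * m) - 1) :=
            mul_le_mul_of_nonneg_left hle h.le
        _ = 1 / 16 - m := by field_simp
    nlinarith
  calc 2 * m ^ 2 * Real.log (1 / m) = 2 * m * (m * Real.log (1 / m)) := by ring
    _ ≤ 2 * m * (Real.log 2 / 4) := mul_le_mul_of_nonneg_left h2 (by positivity)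
    _ = Real.log 2 / 2 * m := by ring

theorem log_two_half_lt : Real.log 2 / 2 < 9 / (8 * π) := by
  have h1 := Real.log_two_lt_d9
  have h2 := Real.pi_lt_d2
  have h3 := Real.pi_pos
  rw [lt_div_iff₀ (by positivity)]
  have h4 : 0 < Real.log 2 := Real.log_pos (by norm_num)
  nlinarith

/-- Pairwise disjoint measurable sets, each of Gaussian measure at most `1 / 16`, satisfy the
propeller bound (even with `log 2 / 2` in place of `9 / (8 π)`). -/
theorem sum_norm_sq_le {k : ℕ} (A : Fin k → Set E) (hmeas : ∀ i, MeasurableSet (A i))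
    (hdisj : Pairwise (Function.onFun Disjoint A))
    (hsmall : ∀ i, (stdGaussian E).real (A i) ≤ 1 / 16) :
    ∑ i, ‖∫ x in A i, x ∂(stdGaussian E)‖ ^ 2 ≤ Real.log 2 / 2 := by
  have hsum : ∑ i, (stdGaussian E).real (A i) ≤ 1 := by
    rw [← measureReal_iUnion_fintype hdisj hmeas]
    exact measureReal_le_one
  calc ∑ i, ‖∫ x in A i, x ∂(stdGaussian E)‖ ^ 2
      ≤ ∑ i, Real.log 2 / 2 * (stdGaussian E).real (A i) := by
        apply Finset.sum_le_sum
        intro i _
        exact (norm_sq_moment_le (A i)).trans (small_bound _ measureReal_nonneg (hsmall i))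
    _ = Real.log 2 / 2 * ∑ i, (stdGaussian E).real (A i) := by rw [Finset.mul_sum]
    _ ≤ Real.log 2 / 2 * 1 := by
        apply mul_le_mul_of_nonneg_left hsum
        have : 0 < Real.log 2 := Real.log_pos (by norm_num)
        positivity
    _ = Real.log 2 / 2 := by ring

end Vale.Agent.Lib.P226
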